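import Mathlib
import Crest.Agent.R137.BUTri

/-!
# Brouwer's fixed point theorem, from the Borsuk–Ulam theorem `Crest.Agent.R137.bu_tri`.
-/

set_option autoImplicit false

namespace Crest.Agent.Brouwer

open Metric

/-- Borsuk–Ulam on the `ℓ¹` sphere. -/
theorem borsuk_ulam_l1 (n : ℕ) (f : Fin n → (Fin (n + 1) → ℝ) → ℝ)
    (hf : ∀ k, ContinuousOn (f k) {x | ∑ j, |x j| = 1})
    (ho : ∀ k x, ∑ j, |x j| = 1 → f k (-x) = - f k x) :
    ∃ x : Fin (n + 1) → ℝ, ∑ j, |x j| = 1 ∧ ∀ k, f k x = 0 := by
  obtain ⟨x, hx, hx'⟩ := Crest.Agent.R137.bu_tri 1 (fun _ => n) (fun _ _ => -1)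
    (fun _ _ => Or.inr rfl) (fun _ => rfl)
    (fun a b h => absurd h (by have := Subsingleton.elim a b; simp [this]))
    (fun _ k x => f k (x 0))
    (by
      intro a k
      apply (hf k).comp (by fun_prop)
      intro x hx
      exact hx 0)
    (by
      intro a k b x hx
      have hb : b = 0 := Subsingleton.elim _ _
      subst hb
      simp only [Crest.Agent.R137.negBlock, Function.update_self]
      rw [ho k _ (hx 0)]; ring)
  exact ⟨x 0, hx 0, fun k => hx' 0 k⟩

section ball

variable {n : ℕ}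

local notation "E" n => EuclideanSpace ℝ (Fin n)

/-- radial retraction -/
noncomputable def rr (y : E n) : E n := (max 1 ‖y‖)⁻¹ • y

theorem rr_mem (y : E n) : rr y ∈ closedBall (0 : E n) 1 := by
  rw [mem_closedBall_zero_iff, rr, norm_smul, norm_inv, Real.norm_eq_abs,
    abs_of_pos (lt_of_lt_of_le one_pos (le_max_left _ _))]
  rw [inv_mul_le_iff₀ (lt_of_lt_of_le one_pos (le_max_left _ _))]
  simp

theorem rr_of_le (y : E n) (h : ‖y‖ ≤ 1) : rr y = y := by
  rw [rr, max_eq_left h, inv_one, one_smul]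

theorem norm_rr_of_ge (y : E n) (h : 1 ≤ ‖y‖) : ‖rr y‖ = 1 := by
  rw [rr, max_eq_right h, norm_smul, norm_inv, norm_norm, inv_mul_cancel₀]
  positivity

theorem rr_neg (y : E n) : rr (-y) = - rr y := by
  rw [rr, rr, norm_neg, smul_neg]

theorem continuous_rr : Continuous (rr : (E n) → E n) := by
  have h1 : Continuous (fun y : E n => (max 1 ‖y‖)⁻¹) := by
    apply Continuous.inv₀ (by fun_prop)
    intro x
    exact (lt_of_lt_of_le one_pos (le_max_left _ _)).ne'
  exact h1.smul continuous_id

noncomputable def GG (f : (E n) → E n) (y : E n) : E n :=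
  rr y - (max 0 (min 1 (2 - ‖y‖))) • f (rr y)

theorem GG_cont (f : (E n) → E n) (hf : ContinuousOn f (closedBall 0 1)) :
    Continuous (GG f) := by
  have h1 : Continuous (fun y : E n => max 0 (min 1 (2 - ‖y‖))) := by fun_prop
  have h2 : Continuous (fun y : E n => f (rr y)) := hf.comp_continuous continuous_rr rr_mem
  exact continuous_rr.sub (h1.smul h2)

theorem GG_odd (f : (E n) → E n) (y : E n) (hy : 2 ≤ ‖y‖) : GG f (-y) = - GG f y := by
  have h : max 0 (min 1 (2 - ‖y‖)) = 0 := by
    rw [max_eq_left]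
    exact (min_le_right _ _).trans (by linarith)
  unfold GG
  rw [norm_neg, h, rr_neg]
  simp

theorem GG_ne (f : (E n) → E n) (hm : Set.MapsTo f (closedBall 0 1) (closedBall 0 1))
    (hno : ∀ x ∈ closedBall (0 : E n) 1, f x ≠ x) (y : E n) : GG f y ≠ 0 := by
  intro h
  unfold GG at h
  rw [sub_eq_zero] at h
  by_cases h1 : ‖y‖ ≤ 1
  · have h2 : max 0 (min 1 (2 - ‖y‖)) = 1 := by
      rw [min_eq_left (by linarith), max_eq_right zero_le_one]
    rw [h2, one_smul, rr_of_le y h1] at h
    exact hno y (by rwa [mem_closedBall_zero_iff]) h.symm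
  · push Not at h1
    have h2 := congrArg norm h
    rw [norm_rr_of_ge y h1.le, norm_smul, Real.norm_eq_abs, abs_of_nonneg (le_max_left _ _)] at h2
    have h3 : ‖f (rr y)‖ ≤ 1 := by
      have := hm (rr_mem y)
      rwa [mem_closedBall_zero_iff] at this
    have h4 : max 0 (min 1 (2 - ‖y‖)) < 1 := by
      rw [max_lt_iff]
      refine ⟨one_pos, (min_le_right _ _).trans_lt (by linarith)⟩
    have h5 : 0 ≤ max 0 (min 1 (2 - ‖y‖)) := le_max_left _ _
    nlinarith [norm_nonneg (f (rr y))]

/-- tail of a vector, scaled -/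
noncomputable def tl (x : Fin (n + 1) → ℝ) : E n :=
  (2 * (n : ℝ)) • (WithLp.toLp 2 (fun i : Fin n => x i.succ))

theorem tl_neg (x : Fin (n + 1) → ℝ) : tl (-x) = - tl x := by
  unfold tl
  rw [← smul_neg]
  congr 1

theorem tl_cont : Continuous (tl : (Fin (n + 1) → ℝ) → E n) := by
  unfold tl
  fun_prop

theorem norm_tl (x : Fin (n + 1) → ℝ) (hx : ∑ j, |x j| = 1) (h0 : x 0 = 0) : 2 ≤ ‖tl x‖ := by
  rw [Fin.sum_univ_succ, h0, abs_zero, zero_add] at hx
  have h1 : ∀ i : Fin n, |x i.succ| ≤ ‖(WithLp.toLp 2 (fun i : Fin n => x i.succ) : E n)‖ := by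
    intro i
    have := PiLp.norm_apply_le (p := 2) (WithLp.toLp 2 (fun i : Fin n => x i.succ) : E n) i
    simpa using this
  have h2 : (1 : ℝ) ≤ n * ‖(WithLp.toLp 2 (fun i : Fin n => x i.succ) : E n)‖ := by
    calc (1 : ℝ) = ∑ i : Fin n, |x i.succ| := hx.symm
      _ ≤ ∑ _i : Fin n, ‖(WithLp.toLp 2 (fun i : Fin n => x i.succ) : E n)‖ :=
        Finset.sum_le_sum fun i _ => h1 i
      _ = _ := by simp
  rw [tl, norm_smul, Real.norm_eq_abs, abs_of_nonneg (by positivity)]
  linarith

open Classical in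
theorem brouwer_closedBall (f : (E n) → E n)
    (hf : ContinuousOn f (closedBall 0 1)) (hm : Set.MapsTo f (closedBall 0 1) (closedBall 0 1)) :
    ∃ x, x ∈ closedBall (0 : E n) 1 ∧ f x = x := by
  by_contra hcon
  push Not at hcon
  have hG := GG_cont f hf
  have hne := GG_ne f hm hcon
  let h : Fin n → (Fin (n + 1) → ℝ) → ℝ := fun k x =>
    if 0 ≤ x 0 then GG f (tl x) k else - GG f (- tl x) k
  obtain ⟨x, hx, hx'⟩ := borsuk_ulam_l1 n h
    (by
      intro k
      rw [continuousOn_iff_continuous_domRestrict]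
      have hc : Continuous (fun y : E n => y k) := by fun_prop
      refine Continuous.if_le (f := fun _ => (0 : ℝ))
        (g := fun x : {x : Fin (n + 1) → ℝ | ∑ j, |x j| = 1} => x.1 0)
        (f' := fun x => GG f (tl x.1) k) (g' := fun x => - GG f (- tl x.1) k) ?_ ?_ ?_ ?_ ?_
      · exact hc.comp (hG.comp (tl_cont.comp continuous_subtype_val))
      · exact (hc.comp (hG.comp (tl_cont.comp continuous_subtype_val).neg)).neg
      · exact continuous_const
      · exact (continuous_apply 0).comp continuous_subtype_val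
      · intro x hx0
        have := GG_odd f (tl x.1) (norm_tl x.1 x.2 hx0.symm)
        rw [this]
        simp)
    (by
      intro k x hx
      simp only [h, Pi.neg_apply, tl_neg, neg_neg]
      rcases lt_trichotomy (x 0) 0 with h0 | h0 | h0
      · rw [if_pos (by linarith), if_neg (by linarith)]; simp
      · rw [if_pos (by linarith), if_pos (by linarith), GG_odd f _ (norm_tl x hx h0)]
        simp
      · rw [if_neg (by linarith), if_pos (by linarith)])
  by_cases h0 : 0 ≤ x 0
  · apply hne (tl x)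
    ext k
    have := hx' k
    simp only [h, if_pos h0] at this
    simpa using this
  · apply hne (- tl x)
    ext k
    have := hx' k
    simp only [h, if_neg h0] at this
    simpa using this

end ball

section convex

variable {F : Type*} [NormedAddCommGroup F] [InnerProductSpace ℝ F]

/-- The nearest point map onto a compact convex set is continuous. -/
theorem exists_proj {K : Set F} (hc : Convex ℝ K) (hK : IsCompact K) (hne : K.Nonempty) :
    ∃ p : F → F, Continuous p ∧ (∀ x, p x ∈ K) ∧ ∀ x ∈ K, p x = x := by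
  have hcomp : IsComplete K := hK.isComplete
  have hex : ∀ u : F, ∃ v ∈ K, ∀ w ∈ K, inner ℝ (u - v) (w - v) ≤ 0 := by
    intro u
    obtain ⟨v, hv, hv'⟩ := exists_norm_eq_iInf_of_complete_convex hne hcomp hc u
    exact ⟨v, hv, (norm_eq_iInf_iff_real_inner_le_zero hc hv).1 hv'⟩
  choose p hpK hp using hex
  have hlip : ∀ x y, ‖p x - p y‖ ≤ ‖x - y‖ := by
    intro x y
    have h1 := hp x (p y) (hpK y)
    have h2 := hp y (p x) (hpK x)
    have h3 : inner ℝ (x - p x) (p y - p x) + inner ℝ (y - p y) (p x - p y) =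
        inner ℝ (p x - p y) (p x - p y) - inner ℝ (x - y) (p x - p y) := by
      simp only [inner_sub_left, inner_sub_right]
      ring
    have h4 : ‖p x - p y‖ ^ 2 ≤ ‖x - y‖ * ‖p x - p y‖ := by
      rw [← real_inner_self_eq_norm_sq]
      calc inner ℝ (p x - p y) (p x - p y) ≤ inner ℝ (x - y) (p x - p y) := by linarith
        _ ≤ _ := real_inner_le_norm _ _
    rcases (norm_nonneg (p x - p y)).eq_or_lt with h | h
    · rw [← h]; positivity
    · nlinarith
  refine ⟨p, ?_, hpK, ?_⟩
  · have : LipschitzWith 1 p := LipschitzWith.of_dist_le_mul (fun x y => by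
      rw [dist_eq_norm, dist_eq_norm]; simpa using hlip x y)
    exact this.continuous
  · intro x hx
    have h1 := hp x x hx
    rw [real_inner_self_eq_norm_sq] at h1
    have : ‖x - p x‖ = 0 := by nlinarith [norm_nonneg (x - p x)]
    rw [norm_eq_zero, sub_eq_zero] at this
    exact this.symm

theorem brouwer_convex_euclidean {n : ℕ} {K : Set (EuclideanSpace ℝ (Fin n))} (hc : Convex ℝ K)
    (hK : IsCompact K) (hne : K.Nonempty)
    (f : EuclideanSpace ℝ (Fin n) → EuclideanSpace ℝ (Fin n)) (hf : ContinuousOn f K)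
    (hm : Set.MapsTo f K K) : ∃ x ∈ K, f x = x := by
  obtain ⟨p, hpc, hpK, hp⟩ := exists_proj hc hK hne
  obtain ⟨R, hR, hKR⟩ := hK.isBounded.subset_closedBall_lt 0 0
  have hmap : ∀ z, R⁻¹ • f (p (R • z)) ∈ closedBall (0 : EuclideanSpace ℝ (Fin n)) 1 := by
    intro z
    have h1 := hKR (hm (hpK (R • z)))
    rw [mem_closedBall_zero_iff] at h1 ⊢
    rw [norm_smul, norm_inv, Real.norm_eq_abs, abs_of_pos hR, inv_mul_le_iff₀ hR]
    linarith
  obtain ⟨z, -, hz⟩ := brouwer_closedBall (fun z => R⁻¹ • f (p (R • z)))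
    (by
      have h1 : Continuous (fun z => f (p (R • z))) :=
        hf.comp_continuous (hpc.comp (continuous_const_smul R)) (fun x => hpK _)
      exact (h1.const_smul R⁻¹).continuousOn)
    (fun z _ => hmap z)
  have h2 : f (p (R • z)) = R • z := by
    have := congrArg (fun y => R • y) hz
    simp only [smul_smul, mul_inv_cancel₀ hR.ne', one_smul] at this
    exact this
  have h3 : R • z ∈ K := by
    rw [← h2]; exact hm (hpK _)
  rw [hp _ h3] at h2
  exact ⟨R • z, h3, h2⟩

/-- Brouwer's fixed point theorem for compact convex subsets of finite dimensional spaces. -/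
theorem brouwer_convex {G : Type*} [NormedAddCommGroup G] [NormedSpace ℝ G]
    [FiniteDimensional ℝ G] {K : Set G} (hc : Convex ℝ K)
    (hK : IsCompact K) (hne : K.Nonempty) (f : G → G) (hf : ContinuousOn f K)
    (hm : Set.MapsTo f K K) : ∃ x ∈ K, f x = x := by
  let e : G ≃L[ℝ] EuclideanSpace ℝ (Fin (Module.finrank ℝ G)) :=
    toEuclidean
  have hK' : IsCompact (e '' K) := hK.image e.continuous
  have hc' : Convex ℝ (e '' K) := hc.linear_image (e.toLinearEquiv.toLinearMap)
  obtain ⟨y, hy, hy'⟩ := brouwer_convex_euclidean hc' hK' (hne.image _)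
    (fun y => e (f (e.symm y)))
    (by
      apply e.continuous.comp_continuousOn
      apply hf.comp e.symm.continuous.continuousOn
      rintro y ⟨x, hx, rfl⟩
      simpa using hx)
    (by
      rintro y ⟨x, hx, rfl⟩
      simp only [ContinuousLinearEquiv.symm_apply_apply]
      exact ⟨_, hm hx, rfl⟩)
  obtain ⟨x, hx, rfl⟩ := hy
  refine ⟨x, hx, ?_⟩
  simp only [ContinuousLinearEquiv.symm_apply_apply] at hy'
  exact e.injective hy'

end convex

end Crest.Agent.Brouwer
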